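import Vale.Agent.Lib.P209.Beyond

namespace Vale.Agent.Results.P209.A_beyond

open Vale.Agent.Lib.P209

/-- Packings of a ball by more balls than the grid of mesh `R / m` allows, with capacities above
`R / (m + 1)`. First part, two sizes: if `2 q b ≤ R`, `2 q b + (2 m - 2 q + 1) c ≤ 2 R` and
`(2 q - 1) c ≤ 2 q b`, then `q ^ n * 2 ^ (n - 1) + m ^ n - (2 q - 1) ^ n` balls of capacity below
`b`, at most `q ^ n * 2 ^ (n - 1)` of them of capacity at least `c`, pack into the ball of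
capacity `R`. Second part, equal sizes: the same number of balls of capacity below
`2 R / (2 m + 1)` pack when `2 q ≤ m`. For `m = 2`, `q = 1` these are `3 * 2 ^ (n - 1) - 1` balls of
capacity below `2 R / 5`. -/
theorem result :
    (∀ (n m q k : ℕ), 1 ≤ n → 1 ≤ q → 2 * q ≤ m + 1 → ∀ (r : Fin k → ℝ) (R b c : ℝ),
      0 < b → 0 < c → 2 * q * b ≤ R → 2 * q * b + (2 * m - 2 * q + 1) * c ≤ 2 * R →
      (2 * q - 1) * c ≤ 2 * q * b →
      k ≤ q ^ n * 2 ^ (n - 1) + (m ^ n - (2 * q - 1) ^ n) →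
      (∀ i, 0 < r i) → (∀ i, r i < b) →
      (Finset.univ.filter fun i => c ≤ r i).card ≤ q ^ n * 2 ^ (n - 1) →
      SymplecticPacking n r R) ∧
    (∀ (n m q k : ℕ), 1 ≤ n → 1 ≤ q → 2 * q ≤ m → ∀ (r : Fin k → ℝ) (R : ℝ), 0 < R →
      k ≤ q ^ n * 2 ^ (n - 1) + (m ^ n - (2 * q - 1) ^ n) →
      (∀ i, 0 < r i) → (∀ i, (2 * m + 1) * r i < 2 * R) →
      SymplecticPacking n r R) := by
  refine ⟨?_, ?_⟩
  · intro n m q k hn hq hm r R b c hb hc h1 h2 h3 hk hpos hrb hcount
    exact beyond_theorem hn m q hq hm r R b c hb hc h1 h2 h3 hk hpos hrb hcount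
  · intro n m q k hn hq hm r R hR hk hpos hr
    have hm1 : (0 : ℝ) < 2 * m + 1 := by positivity
    have hqm : (2 * q : ℝ) ≤ m := by exact_mod_cast hm
    have hq1 : (1 : ℝ) ≤ q := by exact_mod_cast hq
    have hb : 0 < 2 * R / (2 * m + 1) := by positivity
    have hmul : (2 * (m : ℝ) + 1) * (2 * R / (2 * m + 1)) = 2 * R := by
      field_simp
    have hrb : ∀ i, r i < 2 * R / (2 * m + 1) := by
      intro i
      rw [lt_div_iff₀ hm1]
      linarith [hr i]
    refine beyond_theorem hn m q hq (by omega) r R (2 * R / (2 * m + 1)) (2 * R / (2 * m + 1)) hb hb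
      ?_ ?_ ?_ hk hpos hrb ?_
    · have h5 : 2 * (q : ℝ) * (2 * R / (2 * m + 1)) ≤ (m + 1 / 2) * (2 * R / (2 * m + 1)) :=
        mul_le_mul_of_nonneg_right (by linarith) hb.le
      have h6 : ((m : ℝ) + 1 / 2) * (2 * R / (2 * m + 1)) = R := by
        field_simp
      linarith
    · have h6 : 2 * (q : ℝ) * (2 * R / (2 * m + 1)) + (2 * m - 2 * q + 1) * (2 * R / (2 * m + 1))
          = (2 * (m : ℝ) + 1) * (2 * R / (2 * m + 1)) := by ring
      rw [h6, hmul]
    · have h7 : 0 ≤ 2 * R / (2 * (m : ℝ) + 1) := hb.le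
      nlinarith
    · have : (Finset.univ.filter fun i => 2 * R / (2 * (m : ℝ) + 1) ≤ r i) = ∅ := by
        apply Finset.filter_false_of_mem
        intro i _
        exact not_le.2 (hrb i)
      rw [this]
      simp

end Vale.Agent.Results.P209.A_beyond
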