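import Vale.Agent.Lib.P209.TopM

namespace Vale.Agent.Results.P209.A_main

open Vale.Agent.Lib.P209

/-- Conjecture A up to a small volume defect, with more large balls allowed: for `m ≥ 1`, if at most
`(m + 1) ^ n` capacities exceed `x`, if `r i + m r j < R` for `i ≠ j`, and if the total volume is at
most `(1 - 10 n² √(x / R)) R ^ n`, then the balls pack. For `m = 1` the first condition is the
two-ball condition and at most `2 ^ n` large balls are allowed. -/
theorem result (n : ℕ) (hn : 1 ≤ n) (k m : ℕ) (hm : 1 ≤ m) (r : Fin k → ℝ) (R x : ℝ)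
    (hR : 0 < R) (hx : 0 ≤ x)
    (hpos : ∀ i, 0 < r i) (hlt : ∀ i, r i < R) (hij : ∀ i j, i ≠ j → r i + m * r j < R)
    (hbig : (Finset.univ.filter fun i => x < r i).card ≤ (m + 1) ^ n)
    (hvol : ∑ i, r i ^ n ≤ (1 - 10 * (n : ℝ) ^ 2 * √(x / R)) * R ^ n) :
    SymplecticPacking n r R :=
  main_theorem_m hn m hm r R x hR hx hpos hlt hij hbig hvol

end Vale.Agent.Results.P209.A_main
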