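import Vale.Agent.Lib.P209.TwoPow

namespace Vale.Agent.Results.P209.C_two_pow

open Vale.Agent.Lib.P209

/-- For at most `2 ^ n` balls, of arbitrary positive capacities, the two-ball condition alone
gives a symplectic packing of the open ball of capacity `R`. -/
theorem result (n : ℕ) (hn : 1 ≤ n) (k : ℕ) (hk : k ≤ 2 ^ n) (r : Fin k → ℝ) (R : ℝ)
    (hpos : ∀ i, 0 < r i) (hR : ∀ i, r i < R) (hij : ∀ i j, i ≠ j → r i + r j < R) :
    SymplecticPacking n r R :=
  packing_le_two_pow hn hk r R hpos hR hij

end Vale.Agent.Results.P209.C_two_pow
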