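import Vale.Agent.Lib.P209.OneBig

namespace Vale.Agent.Results.P209.D_onebig

open Vale.Agent.Lib.P209

/-- At most one ball larger than `x`: the volume condition with the linear defect `(R - n x) ^ n`
suffices. -/
theorem result (n : ℕ) (hn : 1 ≤ n) (k : ℕ) (r : Fin k → ℝ) (R x : ℝ) (hx : 0 ≤ x)
    (hpos : ∀ i, 0 < r i)
    (hbig : (Finset.univ.filter fun i => x < r i).card ≤ 1)
    (hR : n * x ≤ R)
    (hvol : ∑ i, r i ^ n < (R - n * x) ^ n) :
    SymplecticPacking n r R :=
  one_big_theorem hn r R x hx hpos hbig hR hvol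

end Vale.Agent.Results.P209.D_onebig
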